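import Mathlib

/-!
Core argument for the lower bound on the signed initial-segment-sum constant:
an oblivious adversary beats every threshold `M` with `M ^ 2 < d + 1` in dimension `d ≥ 2`.
-/

namespace Vale.Agent.Lib.P262

open scoped RealInnerProductSpace

variable {E : Type*} [NormedAddCommGroup E] [InnerProductSpace ℝ E]

/-- One fixed finite sequence of vectors of norm at most one defeats every starting point of `S`:
whatever the signs, some initial segment sum (added to the starting point) has norm above `M`. -/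
def Defeats (M : ℝ) (S : Set E) : Prop :=
  ∃ (N : ℕ) (v : ℕ → E), (∀ i, ‖v i‖ ≤ 1) ∧ ∀ s ∈ S, ∀ ε : ℕ → ℝ, (∀ i, ε i = 1 ∨ ε i = -1) →
    ∃ k ≤ N, M < ‖s + ∑ i ∈ Finset.range k, ε i • v i‖

lemma defeats_of_norm {M : ℝ} {S : Set E} (h : ∀ s ∈ S, M < ‖s‖) : Defeats M S := by
  refine ⟨0, fun _ => 0, fun _ => by simp, fun s hs ε _ => ⟨0, le_refl _, ?_⟩⟩
  simpa using h s hs

/-- Put the vector `w` in front of the sequence `v`. -/
def consSeq (w : E) (v : ℕ → E) : ℕ → E
  | 0 => w
  | (n + 1) => v n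

omit [InnerProductSpace ℝ E] in
@[simp] lemma consSeq_zero (w : E) (v : ℕ → E) : consSeq w v 0 = w := rfl

omit [InnerProductSpace ℝ E] in
@[simp] lemma consSeq_succ (w : E) (v : ℕ → E) (n : ℕ) : consSeq w v (n + 1) = v n := rfl

lemma defeats_cons {M : ℝ} {S T : Set E} (w : E) (hw : ‖w‖ ≤ 1) (hT : Defeats M T)
    (h : ∀ s ∈ S, (M < ‖s + w‖ ∨ s + w ∈ T) ∧ (M < ‖s - w‖ ∨ s - w ∈ T)) : Defeats M S := by
  obtain ⟨N, v, hv, H⟩ := hT
  refine ⟨N + 1, consSeq w v, ?_, ?_⟩
  · intro i
    cases i with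
    | zero => exact hw
    | succ n => exact hv n
  · intro s hs ε hε
    obtain ⟨h1, h2⟩ := h s hs
    rcases hε 0 with h0 | h0
    · rcases h1 with h1 | h1
      · refine ⟨1, by omega, ?_⟩
        simpa [h0] using h1
      · obtain ⟨k, hk, hk'⟩ := H _ h1 (fun i => ε (i + 1)) (fun i => hε (i + 1))
        refine ⟨k + 1, by omega, ?_⟩
        rw [Finset.sum_range_succ']
        simp only [h0, one_smul, consSeq_zero, consSeq_succ]
        have : s + (∑ i ∈ Finset.range k, ε (i + 1) • v i + w)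
            = s + w + ∑ i ∈ Finset.range k, ε (i + 1) • v i := by abel
        rw [this]
        exact hk'
    · rcases h2 with h2 | h2
      · refine ⟨1, by omega, ?_⟩
        simpa [h0, sub_eq_add_neg] using h2
      · obtain ⟨k, hk, hk'⟩ := H _ h2 (fun i => ε (i + 1)) (fun i => hε (i + 1))
        refine ⟨k + 1, by omega, ?_⟩
        rw [Finset.sum_range_succ']
        simp only [h0, neg_smul, one_smul, consSeq_zero, consSeq_succ]
        have : s + (∑ i ∈ Finset.range k, ε (i + 1) • v i + -w)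
            = s - w + ∑ i ∈ Finset.range k, ε (i + 1) • v i := by abel
        rw [this]
        exact hk'

lemma exists_unit_pair (a b t : ℝ) (hpos : 0 < a ^ 2 + b ^ 2) (ht : t ^ 2 ≤ a ^ 2 + b ^ 2) :
    ∃ α β : ℝ, α ^ 2 + β ^ 2 = 1 ∧ α * a + β * b = t := by
  set r := a ^ 2 + b ^ 2 with hr
  set w := Real.sqrt (r - t ^ 2) with hw
  have hw2 : w ^ 2 = r - t ^ 2 := Real.sq_sqrt (by linarith)
  have hr0 : r ≠ 0 := ne_of_gt hpos
  refine ⟨(t * a - w * b) / r, (t * b + w * a) / r, ?_, ?_⟩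
  · have : (t * a - w * b) ^ 2 + (t * b + w * a) ^ 2 = r * r := by
      have : (t * a - w * b) ^ 2 + (t * b + w * a) ^ 2 = (t ^ 2 + w ^ 2) * (a ^ 2 + b ^ 2) := by ring
      rw [this, hw2, ← hr]; ring
    rw [div_pow, div_pow, ← add_div, this]
    field_simp
  · have : (t * a - w * b) * a + (t * b + w * a) * b = t * r := by rw [hr]; ring
    rw [div_mul_eq_mul_div, div_mul_eq_mul_div, ← add_div, this]
    field_simp

/-- Points of squared norm `x` whose coordinates along `f0, f1` are `(a, b)` up to a global sign. -/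
def planeSet (f0 f1 : E) (x a b : ℝ) : Set E :=
  {s | ‖s‖ ^ 2 = x ∧ ((⟪s, f0⟫ = a ∧ ⟪s, f1⟫ = b) ∨ (⟪s, f0⟫ = -a ∧ ⟪s, f1⟫ = -b))}

omit [InnerProductSpace ℝ E] in
lemma lt_norm_of_sq {M : ℝ} {y : E} (h : M ^ 2 < ‖y‖ ^ 2) : M < ‖y‖ :=
  lt_of_pow_lt_pow_left₀ 2 (norm_nonneg _) h

lemma defeats_planeSet {M : ℝ} {f0 f1 : E} (h0 : ‖f0‖ = 1) (h1 : ‖f1‖ = 1) (h01 : ⟪f0, f1⟫ = 0) :
    ∀ n : ℕ, ∀ x a b : ℝ, 1 / 4 ≤ a ^ 2 + b ^ 2 → M ^ 2 - 2 < x →
      2 < (x - (M ^ 2 - 2)) * (3 / 2 : ℝ) ^ n → Defeats M (planeSet f0 f1 x a b) := by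
  have base : ∀ x a b : ℝ, M ^ 2 < x → Defeats M (planeSet f0 f1 x a b) := by
    intro x a b hx
    apply defeats_of_norm
    intro s hs
    apply lt_norm_of_sq
    rw [hs.1]; exact hx
  have f00 : ⟪f0, f0⟫ = 1 := by rw [real_inner_self_eq_norm_sq, h0]; norm_num
  have f11 : ⟪f1, f1⟫ = 1 := by rw [real_inner_self_eq_norm_sq, h1]; norm_num
  have f10 : ⟪f1, f0⟫ = 0 := by rw [real_inner_comm]; exact h01
  intro n
  induction n with
  | zero =>
    intro x a b _ _ h
    apply base
    simp at h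
    linarith
  | succ n ih =>
    intro x a b hab hx h
    by_cases hbig : M ^ 2 < x
    · exact base x a b hbig
    · rw [not_lt] at hbig
      set δ := x - (M ^ 2 - 2) with hδ
      have hδ0 : 0 < δ := by linarith
      have hδ2 : δ ≤ 2 := by linarith
      set t := 1 / 2 - δ / 4 with ht
      have ht0 : 0 ≤ t := by linarith
      have ht1 : t ≤ 1 / 2 := by linarith
      obtain ⟨α, β, hαβ, hdot⟩ := exists_unit_pair a b t (by linarith) (by nlinarith)
      set w := α • f0 + β • f1 with hw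
      have hw2 : ‖w‖ ^ 2 = 1 := by
        rw [← real_inner_self_eq_norm_sq, hw]
        simp only [inner_add_left, inner_add_right, inner_smul_left, inner_smul_right, f00, f11,
          h01, f10]
        simp
        nlinarith
      have hw1 : ‖w‖ ≤ 1 := by
        have : ‖w‖ ^ 2 ≤ 1 ^ 2 := by rw [hw2]; norm_num
        exact le_of_sq_le_sq this (by norm_num) |> fun h => h
      have hwf0 : ⟪w, f0⟫ = α := by
        rw [hw]; simp [inner_add_left, inner_smul_left, h0, f10]
      have hwf1 : ⟪w, f1⟫ = β := by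
        rw [hw]; simp [inner_add_left, inner_smul_left, h1, h01]
      have hsw : ∀ s : E, ⟪s, w⟫ = α * ⟪s, f0⟫ + β * ⟪s, f1⟫ := by
        intro s; rw [hw]; simp [inner_add_right, inner_smul_right]
      have hT := ih (x + 1 - 2 * t) (a - α) (b - β) (by nlinarith) (by linarith) (by
        have : x + 1 - 2 * t - (M ^ 2 - 2) = δ * (3 / 2) := by rw [ht, hδ]; ring
        rw [this]
        rw [pow_succ] at h
        linarith)
      refine defeats_cons w hw1 hT ?_
      intro s hs
      obtain ⟨hsx, hs'⟩ := hs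
      rcases hs' with ⟨ha, hb⟩ | ⟨ha, hb⟩
      · have hin : ⟪s, w⟫ = t := by rw [hsw, ha, hb]; linarith
        constructor
        · left
          apply lt_norm_of_sq
          rw [norm_add_sq_real, hsx, hin, hw2]
          linarith
        · right
          refine ⟨?_, Or.inl ⟨?_, ?_⟩⟩
          · rw [norm_sub_sq_real, hsx, hin, hw2]; ring
          · rw [inner_sub_left, ha, hwf0]
          · rw [inner_sub_left, hb, hwf1]
      · have hin : ⟪s, w⟫ = -t := by rw [hsw, ha, hb]; linarith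
        constructor
        · right
          refine ⟨?_, Or.inr ⟨?_, ?_⟩⟩
          · rw [norm_add_sq_real, hsx, hin, hw2]; ring
          · rw [inner_add_left, ha, hwf0]; ring
          · rw [inner_add_left, hb, hwf1]; ring
        · left
          apply lt_norm_of_sq
          rw [norm_sub_sq_real, hsx, hin, hw2]
          linarith

/-- Points of squared norm `j` that are orthogonal to `e i` for `i < 2` and for `2 + j ≤ i`. -/
def specSet {d : ℕ} (e : Fin d → E) (j : ℕ) : Set E :=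
  {s | ‖s‖ ^ 2 = (j : ℝ) ∧ ∀ i : Fin d, (i.val < 2 ∨ 2 + j ≤ i.val) → ⟪s, e i⟫ = 0}

lemma defeats_specSet {M : ℝ} {d : ℕ} (hd : 2 ≤ d) {e : Fin d → E} (he : Orthonormal ℝ e)
    (hM : M ^ 2 < (d : ℝ) + 1) :
    ∀ k j : ℕ, j + k + 2 = d → Defeats M (specSet e j) := by
  have hnorm : ∀ i, ‖e i‖ = 1 := he.1
  have hort : ∀ i j, i ≠ j → ⟪e i, e j⟫ = 0 := fun i j hij => he.2 hij
  have hself : ∀ i, ⟪e i, e i⟫ = 1 := fun i => by
    rw [real_inner_self_eq_norm_sq, hnorm]; norm_num
  intro k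
  induction k with
  | zero =>
    intro j hj
    set i0 : Fin d := ⟨0, by omega⟩ with hi0
    set i1 : Fin d := ⟨1, by omega⟩ with hi1
    have h01 : i0 ≠ i1 := by
      intro h; have := congrArg Fin.val h; simp [hi0, hi1] at this
    have hx : M ^ 2 - 2 < (j : ℝ) + 1 := by
      have : (d : ℝ) = (j : ℝ) + 2 := by
        have : d = j + 2 := by omega
        rw [this]; push_cast; ring
      linarith
    obtain ⟨n, hn⟩ := pow_unbounded_of_one_lt (2 / ((j : ℝ) + 1 - (M ^ 2 - 2)))
      (by norm_num : (1 : ℝ) < 3 / 2)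
    have hT := defeats_planeSet (M := M) (hnorm i0) (hnorm i1) (hort i0 i1 h01) n ((j : ℝ) + 1) 1 0
      (by norm_num) hx (by
        have hpos : 0 < (j : ℝ) + 1 - (M ^ 2 - 2) := by linarith
        rw [div_lt_iff₀ hpos] at hn
        linarith)
    refine defeats_cons (e i0) (le_of_eq (hnorm i0)) hT ?_
    intro s hs
    obtain ⟨hs1, hs2⟩ := hs
    have a0 : ⟪s, e i0⟫ = 0 := hs2 i0 (Or.inl (by simp [hi0]))
    have a1 : ⟪s, e i1⟫ = 0 := hs2 i1 (Or.inl (by simp [hi1]))
    constructor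
    · right
      refine ⟨?_, Or.inl ⟨?_, ?_⟩⟩
      · rw [norm_add_sq_real, hs1, a0, hnorm]; ring
      · rw [inner_add_left, a0, hself]; ring
      · rw [inner_add_left, a1, hort i0 i1 h01]; ring
    · right
      refine ⟨?_, Or.inr ⟨?_, ?_⟩⟩
      · rw [norm_sub_sq_real, hs1, a0, hnorm]; ring
      · rw [inner_sub_left, a0, hself]; ring
      · rw [inner_sub_left, a1, hort i0 i1 h01]; ring
  | succ k ih =>
    intro j hj
    have hT := ih (j + 1) (by omega)
    set m : Fin d := ⟨2 + j, by omega⟩ with hm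
    refine defeats_cons (e m) (le_of_eq (hnorm m)) hT ?_
    intro s hs
    obtain ⟨hs1, hs2⟩ := hs
    have am : ⟪s, e m⟫ = 0 := hs2 m (Or.inr (by simp [hm]))
    constructor
    · right
      refine ⟨?_, ?_⟩
      · rw [norm_add_sq_real, hs1, am, hnorm]; push_cast; ring
      · intro i hi
        have hne : m ≠ i := by
          intro h; have := congrArg Fin.val h; simp [hm] at this; omega
        rw [inner_add_left, hort m i hne, hs2 i (by omega)]; ring
    · right
      refine ⟨?_, ?_⟩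
      · rw [norm_sub_sq_real, hs1, am, hnorm]; push_cast; ring
      · intro i hi
        have hne : m ≠ i := by
          intro h; have := congrArg Fin.val h; simp [hm] at this; omega
        rw [inner_sub_left, hort m i hne, hs2 i (by omega)]; ring

/-- The adversary beats every threshold `M` with `M ^ 2 < d + 1` as soon as the space contains
`d ≥ 2` orthonormal vectors. -/
theorem exists_bad_sequence {M : ℝ} {d : ℕ} (hd : 2 ≤ d) {e : Fin d → E} (he : Orthonormal ℝ e)
    (hM : M ^ 2 < (d : ℝ) + 1) :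
    ∃ (N : ℕ) (v : ℕ → E), (∀ i, ‖v i‖ ≤ 1) ∧ ∀ ε : ℕ → ℝ, (∀ i, ε i = 1 ∨ ε i = -1) →
      ∃ k ≤ N, M < ‖∑ i ∈ Finset.range k, ε i • v i‖ := by
  obtain ⟨N, v, hv, H⟩ := defeats_specSet hd he hM (d - 2) 0 (by omega)
  refine ⟨N, v, hv, fun ε hε => ?_⟩
  have h0 : (0 : E) ∈ specSet e 0 := by
    refine ⟨by simp, fun i _ => by simp⟩
  obtain ⟨k, hk, hk'⟩ := H 0 h0 ε hε
  exact ⟨k, hk, by simpa using hk'⟩

end Vale.Agent.Lib.P262
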